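import Vale.Agent.P275.H769.SqT

/-!
# The square of a cuspidal character
-/

set_option linter.style.haveILetI false
set_option linter.unusedSectionVars false

namespace Vale.Agent.P275.H769

open scoped BigOperators MatrixGroups
open Module Matrix Vale.Agent.P275.H85 Vale.Agent.P275.H341

section gen

variable {G H : Type} [Group G] [Fintype G] [Group H] [Fintype H]

/-- completeness in two variables -/
theorem dbl (g : G → H → ℂ) (h1 : ∀ y, IsClass (fun x => g x y)) (h2 : ∀ x, IsClass (g x))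
    (h : ∀ α β, IsIrrChar α → IsIrrChar β → ∑ y, (∑ x, α x * g x y) * β y = 0) (x : G) (y : H) :
    g x y = 0 := by
  have e1 : (fun x => g x y) = 0 := by
    apply complete' _ (h1 y)
    intro α hα
    have e2 : (fun y => ∑ x, α x * g x y) = 0 := by
      apply complete'
      · intro y z
        exact Finset.sum_congr rfl (fun x _ => by rw [h2 x y z])
      · intro β hβ
        exact h α β hα hβ
    have e3 := congrFun e2 y
    rw [Pi.zero_apply] at e3
    rw [← e3]
    exact Finset.sum_congr rfl (fun x _ => mul_comm _ _)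
  exact congrFun e1 x

/-- a positive function of norm two -/
theorem norm_two {f : G → ℂ} (hf : Pos f) (h2 : ip f f = 2) :
    ∃ X Y : G → ℂ, IsIrrChar X ∧ IsIrrChar Y ∧ X ≠ Y ∧ f = X + Y := by
  classical
  have h3 := ip_expand f f hf.1
  rw [h2] at h3
  choose! n hn using hf.2
  have h4 : ∑ χ ∈ irrSet G, (n χ) * (n χ) = 2 := by
    have : ((∑ χ ∈ irrSet G, (n χ) * (n χ) : ℕ) : ℂ) = 2 := by
      rw [h3]
      push_cast
      apply Finset.sum_congr rfl
      intro χ hχ
      rw [hn χ (mem_irrSet.mp hχ)]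
    exact_mod_cast this
  obtain ⟨X, hX, hX1⟩ : ∃ χ ∈ irrSet G, n χ * n χ ≠ 0 := by
    by_contra hcon
    push Not at hcon
    rw [Finset.sum_eq_zero hcon] at h4
    exact absurd h4 (by norm_num)
  have hXi := mem_irrSet.mp hX
  have h5 : n X * n X ≤ 2 := by
    rw [← h4]
    exact Finset.single_le_sum (f := fun χ => n χ * n χ) (fun _ _ => Nat.zero_le _) hX
  have h6 : n X = 1 := by
    have h7 : n X ≠ 0 := by
      intro h0
      apply hX1
      rw [h0]
    have h8 : n X < 2 := by nlinarith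
    omega
  have hXX : ip X X = 1 := by rw [ip_irr hXi hXi, if_pos rfl]
  have hfX : ip f X = 1 := by rw [hn X hXi, h6, Nat.cast_one]
  have hcl : IsClass (f - X) := by
    intro a b
    rw [Pi.sub_apply, Pi.sub_apply, hf.1, hXi.isClass]
  have hpos : Pos (f - X) := by
    refine ⟨hcl, fun χ hχ => ?_⟩
    by_cases hχX : χ = X
    · refine ⟨0, ?_⟩
      rw [hχX, ip_sub_left, hfX, hXX, sub_self, Nat.cast_zero]
    · refine ⟨n χ, ?_⟩
      rw [ip_sub_left, ip_irr hXi hχ, if_neg (fun h => hχX h.symm), sub_zero, hn χ hχ]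
  have hnorm : ip (f - X) (f - X) = 1 := by
    rw [ip_sub_left, ip_comm f, ip_comm X, ip_sub_left, ip_sub_left, h2, hXX, ip_comm X f, hfX]
    norm_num
  have hYi := hpos.irr_of_norm_one hnorm
  refine ⟨X, f - X, hXi, hYi, ?_, by abel⟩
  intro h
  have h7 : ip (f - X) X = 0 := by rw [ip_sub_left, hfX, hXX, sub_self]
  rw [← h, hXX] at h7
  exact one_ne_zero h7

end gen

variable {F : Type} [Field F] [Fintype F] [DecidableEq F]

section del

variable {V E : Type} [AddCommGroup V] [Module F V] [FiniteDimensional F V]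
  [AddCommGroup E] [Module F E] [FiniteDimensional F E]

theorem del_dl' (f : CF F) {a a' : E →ₗ[F] E} {x x' : V →ₗ[F] V}
    (ha1' : ∀ v, a (a' v) = v) (ha2' : ∀ v, a' (a v) = v)
    (hx1' : ∀ v, x (x' v) = v) (hx2' : ∀ v, x' (x v) = v) :
    del (dl f) a x = del f a' x' := by
  unfold del
  congr 1
  let eX : (V →ₗ[F] E) ≃ (V →ₗ[F] E) :=
    { toFun := fun X => - (a' ∘ₗ X ∘ₗ x')
      invFun := fun X => - (a ∘ₗ X ∘ₗ x)
      left_inv := fun X => by
        apply LinearMap.ext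
        intro v
        simp [ha1', hx2']
      right_inv := fun X => by
        apply LinearMap.ext
        intro v
        simp [ha2', hx1'] }
  rw [← Equiv.sum_comp eX (fun X => f (V × E) (blk a' X x'))]
  apply Finset.sum_congr rfl
  intro X _
  apply dl_of
  · apply LinearMap.ext
    intro v
    apply Prod.ext
    · simp [hx1']
    · simp [eX, ha1']
  · apply LinearMap.ext
    intro v
    apply Prod.ext
    · simp [hx2']
    · simp [eX, hx2', ha2']

end del

theorem tl_inv {k : ℕ} (A : GL (Fin k) F) (v : Fin k → F) : Par.tl A (Par.tl A⁻¹ v) = v := by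
  rw [← LinearMap.comp_apply, ← Par.tl_mul, mul_inv_cancel, Par.tl_one, LinearMap.id_apply]

theorem tl_inv' {k : ℕ} (A : GL (Fin k) F) (v : Fin k → F) : Par.tl A⁻¹ (Par.tl A v) = v := by
  rw [← LinearMap.comp_apply, ← Par.tl_mul, inv_mul_cancel, Par.tl_one, LinearMap.id_apply]

/-- the pairing of two irreducible characters with the constant term -/
theorem pairing {e m n : ℕ} (hn : m + e = n) {α : GL (Fin e) F → ℂ} {β : GL (Fin m) F → ℂ}
    {Z : GL (Fin n) F → ℂ} (hα : IsIrrChar α) (hβ : IsIrrChar β) (hZ : IsIrrChar Z) :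
    ∑ B, (∑ A, α A * del (dl (toCF Z)) (Par.tl A) (Par.tl B)) * β B
      = Fintype.card (GL (Fin e) F) * (Fintype.card (GL (Fin m) F) *
        ip (rs n (mul (toCF α) (toCF β))) Z) := by
  have h3 := ip_mul (inv_toCF hα.isClass) (inv_toCF hβ.isClass) (inv_toCF hZ.isClass)
    (supp_toCF α) (supp_toCF β) hn
  rw [rs_toCF hZ.isClass, rs_toCF hβ.isClass] at h3
  have c1 : (Fintype.card (GL (Fin e) F) : ℂ) ≠ 0 := Irr.card_ne
  have c2 : (Fintype.card (GL (Fin m) F) : ℂ) ≠ 0 := Irr.card_ne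
  rw [h3, mul_left_comm (Fintype.card (GL (Fin m) F) : ℂ), mul_inv_cancel_left₀ c1,
    mul_inv_cancel_left₀ c2]
  apply Finset.sum_congr rfl
  intro B _
  rw [sum_mul_del hα.isClass, mul_comm]

theorem class_left {e m : ℕ} {f : CF F} (hI : IsoInv f) (x : (Fin m → F) →ₗ[F] (Fin m → F)) :
    IsClass (fun A : GL (Fin e) F => del f (Par.tl A) x) := by
  intro g h
  symm
  exact del_iso hI (LinearEquiv.refl F _) (lq h) (fun _ => rfl) (fun v => lq_conj h g v)

theorem class_right {e m : ℕ} {f : CF F} (hI : IsoInv f) (a : (Fin e → F) →ₗ[F] (Fin e → F)) :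
    IsClass (fun B : GL (Fin m) F => del f a (Par.tl B)) := by
  intro g h
  symm
  exact del_iso hI (lq h) (LinearEquiv.refl F _) (fun v => lq_conj h g v) (fun _ => rfl)

theorem eq_of_single (c : Cu F) : ∀ n : ℕ, n = c.s → ∀ α : GL (Fin n) F → ℂ, IsIrrChar α →
    ip (rs n c.f) α ≠ 0 → toCF α = c.f := by
  classical
  rintro _ rfl α hα h
  rw [c.rs_f, ip_irr c.irr hα] at h
  by_cases h1 : c.χ = α
  · rw [← h1]
    rfl
  · rw [if_neg h1] at h
    exact absurd rfl h

theorem size_two (c : Cu F) : size [c, c] = c.s + c.s := by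
  simp [size]

theorem size_single (c : Cu F) : size [c] = c.s := by
  simp [size]

theorem prodC_single (c : Cu F) : prodC [c] = c.f := CF_mul_one c.inv

theorem prodC_two (c : Cu F) : prodC [c, c] = mul c.f c.f := by
  show mul c.f (prodC [c]) = _
  rw [prodC_single]

/-- the parents of the constituents of the square -/
theorem par_c (c : Cu F) {e m : ℕ} (hn : m + e = c.s + c.s) (he : 0 < e) (hm : 0 < m)
    {α : GL (Fin e) F → ℂ} {β : GL (Fin m) F → ℂ} {Z : GL (Fin (c.s + c.s)) F → ℂ}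
    (hα : IsIrrChar α) (hβ : IsIrrChar β) (hZ : IsIrrChar Z)
    (hcZ : ip (rs (c.s + c.s) (mul c.f c.f)) Z ≠ 0)
    (h : ip (rs (c.s + c.s) (mul (toCF α) (toCF β))) Z ≠ 0) :
    e = c.s ∧ toCF α = c.f ∧ toCF β = c.f := by
  obtain ⟨L, hL, hL'⟩ := exists_support e he α hα
  obtain ⟨L2, hL2, hL2'⟩ := exists_support m hm β hβ
  subst hL hL2
  have h1 := con_mul hn (pos_prodC L) (pos_prodC L2) hα hβ hZ hL' hL2' h
  rw [toCF_rs' (inv_prodC L) (supp_prodC L), toCF_rs' (inv_prodC L2) (supp_prodC L2),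
    ← prodC_append] at h1
  have p1 := pos_prodC (L ++ L2)
  rw [size_append, hn] at p1
  have p2 := pos_prodC [c, c]
  rw [size_two] at p2
  have h3 : ip (rs (c.s + c.s) (prodC (L ++ L2))) (rs (c.s + c.s) (prodC [c, c])) ≠ 0 :=
    pos_common p1 p2 hZ h1 (by rwa [prodC_two])
  have h4 : pair (L ++ L2) [c, c] ≠ 0 := by
    unfold pair
    rw [size_append, hn]
    exact h3
  have h5 := perm_of_pair _ _ h4
  have hlen := h5.length_eq
  rw [List.length_append] at hlen
  have hl : [c, c].length = 2 := rfl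
  rw [hl] at hlen
  have hL1 : L.length ≠ 0 := by
    intro h0
    rw [List.length_eq_zero_iff] at h0
    rw [h0] at he
    exact absurd he (lt_irrefl 0)
  have hL21 : L2.length ≠ 0 := by
    intro h0
    rw [List.length_eq_zero_iff] at h0
    rw [h0] at hm
    exact absurd hm (lt_irrefl 0)
  have hmem : ∀ a ∈ L ++ L2, a = c := by
    intro a ha
    have := h5.subset ha
    simpa using this
  obtain ⟨a, ha⟩ := List.length_eq_one_iff.mp (show L.length = 1 by omega)
  obtain ⟨b, hb⟩ := List.length_eq_one_iff.mp (show L2.length = 1 by omega)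
  subst ha hb
  have ha' : a = c := hmem a (by simp)
  have hb' : b = c := hmem b (by simp)
  subst ha'
  subst hb'
  rw [prodC_single] at hL' hL2'
  exact ⟨size_single _, eq_of_single _ _ (size_single _) α hα hL',
    eq_of_single _ _ (size_single _) β hβ hL2'⟩

/-- vanishing constant terms of the constituents of the square -/
theorem const_ne (c : Cu F) {Z : GL (Fin (c.s + c.s)) F → ℂ} (hZ : IsIrrChar Z)
    (hcZ : ip (rs (c.s + c.s) (mul c.f c.f)) Z ≠ 0) {e m : ℕ} (hn : m + e = c.s + c.s)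
    (he : 0 < e) (hm : 0 < m) (hne : e ≠ c.s) (A : GL (Fin e) F) (B : GL (Fin m) F) :
    del (dl (toCF Z)) (Par.tl A) (Par.tl B) = 0 := by
  have hI := inv_dl (inv_toCF hZ.isClass)
  refine dbl (fun (A : GL (Fin e) F) (B : GL (Fin m) F) =>
    del (dl (toCF Z)) (Par.tl A) (Par.tl B)) (fun _ => class_left hI _)
    (fun _ => class_right hI _) ?_ A B
  intro α β hα hβ
  rw [pairing hn hα hβ hZ]
  have h1 : ip (rs (c.s + c.s) (mul (toCF α) (toCF β))) Z = 0 := by
    by_contra h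
    exact hne (par_c c hn he hm hα hβ hZ hcZ h).1
  rw [h1, mul_zero, mul_zero]

/-- the constant term of the constituents of the square -/
theorem const_eq (c : Cu F) {Z : GL (Fin (c.s + c.s)) F → ℂ} (hZ : IsIrrChar Z)
    (hcZ : ip (rs (c.s + c.s) (mul c.f c.f)) Z = 1) (A B : GL (Fin c.s) F) :
    del (dl (toCF Z)) (Par.tl A) (Par.tl B) = c.χ A⁻¹ * c.χ B⁻¹ := by
  classical
  have hI := inv_dl (inv_toCF hZ.isClass)
  have hinv : IsClass (fun A : GL (Fin c.s) F => c.χ A⁻¹) := by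
    intro g h
    show c.χ (h * g * h⁻¹)⁻¹ = c.χ g⁻¹
    rw [← c.irr.isClass g⁻¹ h]
    congr 1
    group
  rw [← sub_eq_zero]
  refine dbl (fun (A : GL (Fin c.s) F) (B : GL (Fin c.s) F) =>
    del (dl (toCF Z)) (Par.tl A) (Par.tl B) - c.χ A⁻¹ * c.χ B⁻¹) (fun B => ?_)
    (fun A => ?_) ?_ A B
  · intro g h
    show del (dl (toCF Z)) (Par.tl (h * g * h⁻¹)) (Par.tl B) - c.χ (h * g * h⁻¹)⁻¹ * c.χ B⁻¹
      = del (dl (toCF Z)) (Par.tl g) (Par.tl B) - c.χ g⁻¹ * c.χ B⁻¹
    rw [show del (dl (toCF Z)) (Par.tl (h * g * h⁻¹)) (Par.tl B)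
      = del (dl (toCF Z)) (Par.tl g) (Par.tl B) from class_left hI _ g h,
      show c.χ (h * g * h⁻¹)⁻¹ = c.χ g⁻¹ from hinv g h]
  · intro g h
    show del (dl (toCF Z)) (Par.tl A) (Par.tl (h * g * h⁻¹)) - c.χ A⁻¹ * c.χ (h * g * h⁻¹)⁻¹
      = del (dl (toCF Z)) (Par.tl A) (Par.tl g) - c.χ A⁻¹ * c.χ g⁻¹
    rw [show del (dl (toCF Z)) (Par.tl A) (Par.tl (h * g * h⁻¹))
      = del (dl (toCF Z)) (Par.tl A) (Par.tl g) from class_right hI _ g h,
      show c.χ (h * g * h⁻¹)⁻¹ = c.χ g⁻¹ from hinv g h]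
  · intro α β hα hβ
    have e1 : ∑ B, (∑ A, α A * (del (dl (toCF Z)) (Par.tl A) (Par.tl B) - c.χ A⁻¹ * c.χ B⁻¹)) * β B
        = ∑ B, (∑ A, α A * del (dl (toCF Z)) (Par.tl A) (Par.tl B)) * β B
          - (∑ A, α A * c.χ A⁻¹) * ∑ B, β B * c.χ B⁻¹ := by
      rw [Finset.mul_sum, ← Finset.sum_sub_distrib]
      apply Finset.sum_congr rfl
      intro B _
      rw [← mul_assoc, Finset.sum_mul, Finset.sum_mul, Finset.sum_mul, Finset.sum_mul,
        ← Finset.sum_sub_distrib]
      apply Finset.sum_congr rfl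
      intro A _
      ring
    have e2 : ∀ γ : GL (Fin c.s) F → ℂ, IsIrrChar γ → ∑ A, γ A * c.χ A⁻¹
        = (Fintype.card (GL (Fin c.s) F) : ℂ) * if γ = c.χ then 1 else 0 := by
      intro γ hγ
      rw [← ip_irr hγ c.irr]
      unfold ip
      rw [mul_inv_cancel_left₀ Irr.card_ne]
    rw [e1, pairing rfl hα hβ hZ, e2 α hα, e2 β hβ]
    by_cases h1 : α = c.χ ∧ β = c.χ
    · rw [if_pos h1.1, if_pos h1.2, h1.1, h1.2]
      have h2 : ip (rs (c.s + c.s) (mul (toCF c.χ) (toCF c.χ))) Z = 1 := hcZ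
      rw [h2]
      ring
    · have h2 : ip (rs (c.s + c.s) (mul (toCF α) (toCF β))) Z = 0 := by
        by_contra h
        obtain ⟨_, h3, h4⟩ := par_c c rfl c.pos c.pos hα hβ hZ (by rw [hcZ]; exact one_ne_zero) h
        apply h1
        constructor
        · rw [← rs_toCF hα.isClass, h3, c.rs_f]
        · rw [← rs_toCF hβ.isClass, h4, c.rs_f]
      rw [h2]
      rcases not_and_or.mp h1 with h3 | h3
      · rw [if_neg h3]
        ring
      · rw [if_neg h3]
        ring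

theorem const_ne' (c : Cu F) {Z : GL (Fin (c.s + c.s)) F → ℂ} (hZ : IsIrrChar Z)
    (hcZ : ip (rs (c.s + c.s) (mul c.f c.f)) Z ≠ 0) {e m : ℕ} (hn : m + e = c.s + c.s)
    (he : 0 < e) (hm : 0 < m) (hne : e ≠ c.s) (M : Matrix (Fin m) (Fin m) F) :
    del (toCF Z) (Matrix.toLin' (1 : Matrix (Fin e) (Fin e) F)) (Matrix.toLin' M) = 0 := by
  by_cases hM : IsUnit M
  · obtain ⟨B, rfl⟩ := hM
    have h1 := const_ne c hZ hcZ hn he hm hne 1⁻¹ B⁻¹
    rw [del_dl' (toCF Z) (a' := Par.tl 1) (x' := Par.tl B) (fun v => tl_inv' _ v)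
      (fun v => tl_inv _ v) (fun v => tl_inv' _ v) (fun v => tl_inv _ v)] at h1
    exact h1
  · apply del_not (supp_toCF Z)
    right
    rwa [Matrix.isUnit_toLin'_iff]

theorem const_eq' (c : Cu F) {Z : GL (Fin (c.s + c.s)) F → ℂ} (hZ : IsIrrChar Z)
    (hcZ : ip (rs (c.s + c.s) (mul c.f c.f)) Z = 1) (M : Matrix (Fin c.s) (Fin c.s) F) :
    del (toCF Z) (Matrix.toLin' (1 : Matrix (Fin c.s) (Fin c.s) F)) (Matrix.toLin' M)
      = c.χ 1 * ez c.χ M := by
  by_cases hM : IsUnit M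
  · obtain ⟨B, rfl⟩ := hM
    have h1 := const_eq c hZ hcZ 1⁻¹ B⁻¹
    rw [del_dl' (toCF Z) (a' := Par.tl 1) (x' := Par.tl B) (fun v => tl_inv' _ v)
      (fun v => tl_inv _ v) (fun v => tl_inv' _ v) (fun v => tl_inv _ v), inv_inv, inv_inv] at h1
    rw [ez_unit]
    exact h1
  · rw [ez_not _ hM, mul_zero]
    apply del_not (supp_toCF Z)
    right
    rwa [Matrix.isUnit_toLin'_iff]

theorem whit_cusp (c : Cu F) {ψ : AddChar F ℂ} (hψ : ψ ≠ 1) : whit ψ c.χ = 1 := by
  have h1 := pkgC1 F c.s c.pos ψ hψ c.χ c.irr.isClass (cusp_matrix c.irr.isClass c.cusp)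
  rcases pkgC2 F c.s ψ hψ c.χ c.irr with h2 | h2
  · exfalso
    rw [h2, mul_zero] at h1
    exact irr_one_ne c.irr h1
  · exact h2

theorem cusp_one (c : Cu F) : c.χ 1 = ∏ k ∈ Finset.Ico 1 c.s, ((Fintype.card F : ℂ) ^ k - 1) := by
  obtain ⟨ψ, hψ⟩ := exists_addChar F
  have h1 := pkgC1 F c.s c.pos ψ hψ c.χ c.irr.isClass (cusp_matrix c.irr.isClass c.cusp)
  rwa [whit_cusp c hψ, mul_one] at h1

/-- the degree of a constituent of the square in terms of its Whittaker multiplicity -/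
theorem deg_part (c : Cu F) {Z : GL (Fin (c.s + c.s)) F → ℂ} (hZ : IsIrrChar Z)
    (hcZ : ip (rs (c.s + c.s) (mul c.f c.f)) Z = 1) {ψ : AddChar F ℂ} (hψ : ψ ≠ 1) :
    Z 1 = (∏ k ∈ Finset.Ico (c.s + 1) (c.s + c.s), ((Fintype.card F : ℂ) ^ k - 1)) *
      ((∏ k ∈ Finset.Ico 1 c.s, ((Fintype.card F : ℂ) ^ k - 1)) *
        (((Fintype.card F : ℂ) ^ c.s - 1) * whit ψ Z + 1)) := by
  have hs := c.pos
  have hcZ' : ip (rs (c.s + c.s) (mul c.f c.f)) Z ≠ 0 := by rw [hcZ]; exact one_ne_zero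
  have hT0 : ∀ m, 0 < m → m < c.s + c.s → m ≠ c.s → Tm ψ Z m = 0 := by
    intro m hm hmn hne
    rw [Tm_const (k := c.s + c.s - m) (by omega) ψ hZ.isClass]
    rw [Finset.sum_eq_zero, mul_zero]
    intro M _
    rw [const_ne' c hZ hcZ' (by omega) hm (by omega) hne, mul_zero]
  have hTs : Tm ψ Z c.s = ∏ k ∈ Finset.Ico 1 c.s, ((Fintype.card F : ℂ) ^ k - 1) := by
    rw [Tm_const (k := c.s) rfl ψ hZ.isClass, ← cusp_one, ← mul_one (c.χ 1)]
    conv_rhs => rw [← whit_cusp c hψ]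
    unfold whit
    rw [mul_left_comm]
    congr 1
    rw [Finset.mul_sum]
    apply Finset.sum_congr rfl
    intro M _
    rw [const_eq' c hZ hcZ]
    ring
  have h1 : ∀ m, 1 ≤ m → m ≤ c.s → C1.Dm ψ Z m
      = (∏ k ∈ Finset.Ico 1 m, ((Fintype.card F : ℂ) ^ k - 1)) * whit ψ Z := by
    intro m hm
    induction m, hm using Nat.le_induction with
    | base =>
      intro _
      rw [C1.Dm_one]
      simp
    | succ m hm ih =>
      intro hmn
      rw [D_step' (by omega) (by omega) ψ hψ hZ.isClass, hT0 m (by omega) (by omega) (by omega),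
        ih (by omega), Finset.prod_Ico_succ_top hm]
      ring
  have h2 : C1.Dm ψ Z (c.s + 1) = (∏ k ∈ Finset.Ico 1 c.s, ((Fintype.card F : ℂ) ^ k - 1)) *
        (((Fintype.card F : ℂ) ^ c.s - 1) * whit ψ Z + 1) := by
    rw [D_step' (by omega) hs ψ hψ hZ.isClass, hTs, h1 c.s hs le_rfl]
    ring
  have h3 : ∀ m, c.s + 1 ≤ m → m ≤ c.s + c.s → C1.Dm ψ Z m
      = (∏ k ∈ Finset.Ico (c.s + 1) m, ((Fintype.card F : ℂ) ^ k - 1)) *
      ((∏ k ∈ Finset.Ico 1 c.s, ((Fintype.card F : ℂ) ^ k - 1)) *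
        (((Fintype.card F : ℂ) ^ c.s - 1) * whit ψ Z + 1)) := by
    intro m hm
    induction m, hm using Nat.le_induction with
    | base =>
      intro _
      rw [h2]
      simp
    | succ m hm ih =>
      intro hmn
      rw [D_step' (by omega) (by omega) ψ hψ hZ.isClass, hT0 m (by omega) (by omega) (by omega),
        ih (by omega), Finset.prod_Ico_succ_top hm]
      ring
  rw [← C1.Dm_n ψ Z]
  exact h3 _ (by omega) le_rfl

theorem two_pow_ne (F : Type) [Field F] [Fintype F] {s : ℕ} (hs : 0 < s) :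
    (Fintype.card F : ℂ) ^ s - 1 ≠ 0 := by
  have h1 : 1 < Fintype.card F := Fintype.one_lt_card
  have h2 : 1 < Fintype.card F ^ s := Nat.one_lt_pow hs.ne' h1
  rw [sub_ne_zero]
  have h3 : ((Fintype.card F ^ s : ℕ) : ℂ) ≠ ((1 : ℕ) : ℂ) := by
    rw [Ne, Nat.cast_inj]
    omega
  push_cast at h3
  exact h3

/-- **Row SQ** -/
theorem rSq : RSq := by
  intro F _ _ _ c
  have hs := c.pos
  obtain ⟨ψ, hψ⟩ := exists_addChar F
  have hnorm : ip (rs (c.s + c.s) (mul c.f c.f)) (rs (c.s + c.s) (mul c.f c.f)) = 2 := by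
    classical
    have h1 : pair [c, c] [c, c] = 2 := by
      rw [pair_cons]
      have h2 : pair [c] [c] = 1 := pair_nodup [c] (List.nodup_singleton c) [c] (List.Perm.refl _)
      have h3 : ∀ i : Fin ([c, c] : List (Cu F)).length,
          (if c = [c, c].get i then pair [c] ([c, c].eraseIdx i) else 0) = 1 := by
        intro i
        match i with
        | ⟨0, h⟩ =>
          rw [if_pos (show c = [c, c].get ⟨0, h⟩ from rfl)]
          exact h2
        | ⟨1, h⟩ =>
          rw [if_pos (show c = [c, c].get ⟨1, h⟩ from rfl)]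
          exact h2
      rw [Finset.sum_congr rfl (fun i _ => h3 i)]
      simp
    unfold pair at h1
    rw [size_two, prodC_two] at h1
    exact h1
  have hpos : Pos (rs (c.s + c.s) (mul c.f c.f)) := by
    have := pos_prodC [c, c]
    rwa [size_two, prodC_two] at this
  obtain ⟨X, Y, hX, hY, hXY, hsum⟩ := norm_two hpos hnorm
  have hXX : ip X X = 1 := by
    classical
    rw [ip_irr hX hX, if_pos rfl]
  have hYY : ip Y Y = 1 := by
    classical
    rw [ip_irr hY hY, if_pos rfl]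
  have hXY0 : ip X Y = 0 := by
    classical
    rw [ip_irr hX hY, if_neg hXY]
  have hcX : ip (rs (c.s + c.s) (mul c.f c.f)) X = 1 := by
    rw [hsum, ip_add_left, hXX, ip_comm Y X, hXY0, add_zero]
  have hcY : ip (rs (c.s + c.s) (mul c.f c.f)) Y = 1 := by
    rw [hsum, ip_add_left, hYY, hXY0, zero_add]
  have dX := deg_part c hX hcX hψ
  have dY := deg_part c hY hcY hψ
  have hdeg := (degree_list (s := c.s) [c, c] (by
    intro c' hc'
    have : c' = c := by simpa using hc'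
    rw [this]
    exact ⟨rfl, deg_cusp pkgC1 pkgC2 c⟩)).2
  rw [size_two, prodC_two, hsum, Pi.add_apply] at hdeg
  have hcard := card_gl_prod (F := F) (c.s + c.s)
  set q : ℂ := (Fintype.card F : ℂ) with hq
  set P : ℂ := ∏ k ∈ Finset.Ico 1 c.s, (q ^ k - 1) with hP
  set R : ℂ := ∏ k ∈ Finset.Ico (c.s + 1) (c.s + c.s), (q ^ k - 1) with hR
  have hprod : ∏ k ∈ Finset.Ico 1 (c.s + c.s + 1), (q ^ k - 1)
      = P * (q ^ c.s - 1) * R * (q ^ (2 * c.s) - 1) := by
    rw [Finset.prod_Ico_succ_top (by omega), ← Finset.prod_Ico_consecutive _ (show 1 ≤ c.s + 1 by omega)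
      (show c.s + 1 ≤ c.s + c.s by omega), Finset.prod_Ico_succ_top hs, ← hP, ← hR, two_mul]
  rw [hprod] at hcard
  have hqs : q ^ c.s - 1 ≠ 0 := two_pow_ne F hs
  have hq0 : q ≠ 0 := by
    rw [hq]
    exact_mod_cast (Fintype.card_ne_zero : Fintype.card F ≠ 0)
  have hqC : q ^ (Nat.choose (c.s + c.s) 2) ≠ 0 := pow_ne_zero _ hq0
  have hP0 : P ≠ 0 := by
    rw [hP, Finset.prod_ne_zero_iff]
    intro k hk
    exact two_pow_ne F (Finset.mem_Ico.mp hk).1
  have hR0 : R ≠ 0 := by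
    rw [hR, Finset.prod_ne_zero_iff]
    intro k hk
    have := (Finset.mem_Ico.mp hk).1
    exact two_pow_ne F (by omega)
  have h2s : q ^ (2 * c.s) = q ^ c.s * q ^ c.s := by rw [two_mul, pow_add]
  -- the sum of the two Whittaker multiplicities
  have hw : whit ψ X + whit ψ Y = 1 := by
    rw [dX, dY, hcard, h2s] at hdeg
    have hl : [c, c].length = 2 := rfl
    rw [hl] at hdeg
    have h1 : (q ^ (Nat.choose (c.s + c.s) 2) * P * R * (q ^ c.s - 1) ^ 3) * (whit ψ X + whit ψ Y)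
        = (q ^ (Nat.choose (c.s + c.s) 2) * P * R * (q ^ c.s - 1) ^ 3) * 1 := by
      linear_combination hdeg
    exact mul_left_cancel₀ (mul_ne_zero (mul_ne_zero (mul_ne_zero hqC hP0) hR0)
      (pow_ne_zero 3 hqs)) h1
  have key : ∀ {X Y : GL (Fin (c.s + c.s)) F → ℂ}, whit ψ X = 1 → whit ψ Y = 0 →
      X 1 = R * (P * ((q ^ c.s - 1) * whit ψ X + 1)) →
      Y 1 = R * (P * ((q ^ c.s - 1) * whit ψ Y + 1)) →
      X 1 * (q ^ (Nat.choose (c.s + c.s) 2) * ((q ^ c.s - 1) * (q ^ (2 * c.s) - 1)))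
        = q ^ c.s * (Fintype.card (GL (Fin (c.s + c.s)) F) : ℂ) ∧
      Y 1 * (q ^ (Nat.choose (c.s + c.s) 2) * ((q ^ c.s - 1) * (q ^ (2 * c.s) - 1)))
        = (Fintype.card (GL (Fin (c.s + c.s)) F) : ℂ) := by
    intro X Y wX wY dX dY
    rw [dX, dY, wX, wY, hcard]
    constructor
    · ring
    · ring
  rcases pkgC2 F (c.s + c.s) ψ hψ X hX with wX | wX
  · have wY : whit ψ Y = 1 := by rw [wX, zero_add] at hw; exact hw
    obtain ⟨k1, k2⟩ := key wY wX dY dX
    exact ⟨Y, X, hY, hX, hXY.symm, hsum.trans (add_comm X Y), k1, k2⟩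
  · have wY : whit ψ Y = 0 := by
      rw [wX] at hw
      linear_combination hw
    obtain ⟨k1, k2⟩ := key wX wY dX dY
    exact ⟨X, Y, hX, hY, hXY, hsum, k1, k2⟩

end Vale.Agent.P275.H769
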