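import Vale.Agent.P275.H633.FixD
import Mathlib.FieldTheory.Finite.Extension

/-!
# Row X8: a finite field has an extension of every degree
-/

namespace Vale.Agent.P275.H769.X8

open Module

theorem rowX8 : Vale.Agent.P275.H633.RowX8 := by
  intro F _ _ δ hδ
  obtain ⟨p, hc⟩ := CharP.exists F
  have hp : Fact p.Prime := ⟨CharP.char_is_prime F p⟩
  have hn : NeZero δ := ⟨by omega⟩
  exact ⟨FiniteField.Extension F p δ, inferInstance, Fintype.ofFinite _, inferInstance,
    FiniteField.finrank_extension F p δ⟩

end Vale.Agent.P275.H769.X8
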