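import Vale.Agent.P275.H341.Rows

/-!
# Truncated Whittaker averages of a class function: the recursion with constant terms
-/

set_option linter.style.haveILetI false
set_option linter.unusedSectionVars false

namespace Vale.Agent.P275.H769

open scoped BigOperators MatrixGroups
open Module Matrix Vale.Agent.P275.H85

section avg

/-- averages over a finite group and over a quotient -/
theorem avg_surj {A B : Type} [AddCommGroup A] [Fintype A] [AddCommGroup B] [Fintype B]
    (π : A → B) (hadd : ∀ x y, π (x + y) = π x + π y) (hπ : Function.Surjective π) (G : B → ℂ) :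
    (Fintype.card A : ℂ)⁻¹ * ∑ x, G (π x) = (Fintype.card B : ℂ)⁻¹ * ∑ y, G y := by
  have h1 : ∀ y, ∑ x, G (π x + y) = ∑ x, G (π x) := by
    intro y
    obtain ⟨a, rfl⟩ := hπ y
    rw [← Equiv.sum_comp (Equiv.addRight a) (fun x => G (π x))]
    apply Finset.sum_congr rfl
    intro x _
    rw [Equiv.coe_addRight, hadd]
  have h2 : ∑ y, ∑ x, G (π x + y) = (Fintype.card B : ℂ) * ∑ x, G (π x) := by
    rw [Finset.sum_congr rfl (fun y _ => h1 y), Finset.sum_const, Finset.card_univ, nsmul_eq_mul]
  have h3 : ∑ y, ∑ x, G (π x + y) = (Fintype.card A : ℂ) * ∑ y, G y := by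
    have h4 : ∀ x, ∑ y, G (π x + y) = ∑ y, G y :=
      fun x => Equiv.sum_comp (Equiv.addLeft (π x)) G
    rw [Finset.sum_comm, Finset.sum_congr rfl (fun x _ => h4 x),
      Finset.sum_const, Finset.card_univ, nsmul_eq_mul]
  have hA : (Fintype.card A : ℂ) ≠ 0 := by exact_mod_cast Fintype.card_ne_zero
  have hB : (Fintype.card B : ℂ) ≠ 0 := by exact_mod_cast Fintype.card_ne_zero
  rw [h2] at h3
  field_simp
  linear_combination h3

end avg

variable {F : Type} [Field F] [Fintype F] [DecidableEq F]

/-- the first coordinates -/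
def lo {k m n : ℕ} (h : k + m = n) (i : Fin k) : Fin n := ⟨i, by omega⟩

/-- the last coordinates -/
def hi {k m n : ℕ} (h : k + m = n) (i : Fin m) : Fin n := ⟨k + i, by omega⟩

/-- coordinates -/
def th (F : Type) [Field F] (k m : ℕ) : ((Fin m → F) × (Fin k → F)) ≃ₗ[F] (Fin (k + m) → F) where
  toFun z := Fin.append z.2 z.1
  map_add' z w := by
    funext i
    refine Fin.addCases (fun i => ?_) (fun i => ?_) i
    · simp
    · simp
  map_smul' c z := by
    funext i
    refine Fin.addCases (fun i => ?_) (fun i => ?_) i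
    · simp
    · simp
  invFun w := (fun j => w (Fin.natAdd k j), fun i => w (Fin.castAdd m i))
  left_inv z := by
    apply Prod.ext
    · funext j
      simp
    · funext j
      simp
  right_inv w := by
    funext i
    refine Fin.addCases (fun i => ?_) (fun i => ?_) i
    · simp
    · simp

theorem th_apply (k m : ℕ) (z : (Fin m → F) × (Fin k → F)) : th F k m z = Fin.append z.2 z.1 := rfl

theorem ur_ll {k m : ℕ} (c : Matrix (Fin (k + m)) (Fin (k + m)) F) (i : Fin k) (j : Fin k) :
    (ur k c : Matrix (Fin (k + m)) (Fin (k + m)) F) (Fin.castAdd m i) (Fin.castAdd m j) = 0 := by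
  unfold ur
  rw [Matrix.of_apply, if_neg]
  simp only [Fin.val_castAdd, not_and, not_le]
  intro _
  exact j.2

theorem ur_lr {k m : ℕ} (c : Matrix (Fin (k + m)) (Fin (k + m)) F) (i : Fin k) (j : Fin m) :
    (ur k c : Matrix (Fin (k + m)) (Fin (k + m)) F) (Fin.castAdd m i) (Fin.natAdd k j)
      = c (Fin.castAdd m i) (Fin.natAdd k j) := by
  unfold ur
  rw [Matrix.of_apply, if_pos]
  simp only [Fin.val_castAdd, Fin.val_natAdd]
  exact ⟨i.2, Nat.le_add_right _ _⟩

theorem ur_h {k m : ℕ} (c : Matrix (Fin (k + m)) (Fin (k + m)) F) (i : Fin m) (j : Fin (k + m)) :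
    (ur k c : Matrix (Fin (k + m)) (Fin (k + m)) F) (Fin.natAdd k i) j = 0 := by
  unfold ur
  rw [Matrix.of_apply, if_neg]
  simp only [Fin.val_natAdd]
  omega

/-- the upper right block as a linear map -/
noncomputable def ub {k m : ℕ} (c : Matrix (Fin (k + m)) (Fin (k + m)) F) :
    (Fin m → F) →ₗ[F] (Fin k → F) := Matrix.toLin' (c.submatrix (Fin.castAdd m) (Fin.natAdd k))

theorem th_lo {k m : ℕ} (A c : Matrix (Fin (k + m)) (Fin (k + m)) F) (v : Fin m → F) (e : Fin k → F)
    (i : Fin k) :
    ((ub A + ub c) v + Matrix.toLin' (A.submatrix (Fin.castAdd m) (Fin.castAdd m)) e) i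
      = ∑ j, (A + ur k c) (Fin.castAdd m i) j * Fin.append e v j := by
  rw [Fin.sum_univ_add]
  simp only [Fin.append_left, Fin.append_right, Matrix.add_apply, ur_ll, ur_lr, add_zero]
  rw [Pi.add_apply, add_comm, LinearMap.add_apply, Pi.add_apply]
  unfold ub
  rw [Matrix.toLin'_apply, Matrix.toLin'_apply, Matrix.toLin'_apply]
  congr 1
  rw [← Finset.sum_congr rfl (fun j _ => (add_mul (A (Fin.castAdd m i) (Fin.natAdd k j))
    (c (Fin.castAdd m i) (Fin.natAdd k j)) (v j)).symm), Finset.sum_add_distrib]
  rfl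

theorem th_hi {k m : ℕ} (A c : Matrix (Fin (k + m)) (Fin (k + m)) F)
    (hA : ∀ i j : Fin (k + m), k ≤ (i : ℕ) → (j : ℕ) < k → A i j = 0)
    (v : Fin m → F) (e : Fin k → F) (i : Fin m) :
    (Matrix.toLin' (A.submatrix (Fin.natAdd k) (Fin.natAdd k)) v) i
      = ∑ j, (A + ur k c) (Fin.natAdd k i) j * Fin.append e v j := by
  rw [Fin.sum_univ_add]
  simp only [Fin.append_left, Fin.append_right, Matrix.add_apply, ur_h, add_zero]
  have h1 : ∀ j : Fin k, A (Fin.natAdd k i) (Fin.castAdd m j) = 0 := by
    intro j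
    apply hA
    · simp only [Fin.val_natAdd]
      omega
    · exact j.2
  simp only [h1, zero_mul, Finset.sum_const_zero, zero_add]
  rw [Matrix.toLin'_apply]
  rfl

theorem th_blk {k m : ℕ} (A c : Matrix (Fin (k + m)) (Fin (k + m)) F)
    (hA : ∀ i j : Fin (k + m), k ≤ (i : ℕ) → (j : ℕ) < k → A i j = 0)
    (z : (Fin m → F) × (Fin k → F)) :
    th F k m (blk (Matrix.toLin' (A.submatrix (Fin.castAdd m) (Fin.castAdd m))) (ub A + ub c)
      (Matrix.toLin' (A.submatrix (Fin.natAdd k) (Fin.natAdd k))) z)
      = Matrix.toLin' (A + ur k c) (th F k m z) := by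
  rw [blk_apply, th_apply, th_apply, Matrix.toLin'_apply]
  funext i
  show _ = ∑ j, (A + ur k c) i j * Fin.append z.2 z.1 j
  refine Fin.addCases (fun i => ?_) (fun i => ?_) i
  · rw [Fin.append_left]
    exact th_lo A c z.1 z.2 i
  · rw [Fin.append_right]
    exact th_hi A c hA z.1 z.2 i

theorem ub_surj {k m : ℕ} :
    Function.Surjective (ub : Matrix (Fin (k + m)) (Fin (k + m)) F → _) := by
  intro X
  refine ⟨Matrix.of fun i j => Fin.addCases (motive := fun _ => F)
    (fun i' => Fin.addCases (motive := fun _ => F) (fun _ => 0)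
    (fun j' => LinearMap.toMatrix' X i' j') j) (fun _ => 0) i, ?_⟩
  conv_rhs => rw [← Matrix.toLin'_toMatrix' X]
  unfold ub
  congr 1
  ext i j
  rw [Matrix.submatrix_apply, Matrix.of_apply, Fin.addCases_left, Fin.addCases_right]

theorem ub_add {k m : ℕ} (c c' : Matrix (Fin (k + m)) (Fin (k + m)) F) :
    ub (c + c') = ub c + ub c' := by
  unfold ub
  rw [← map_add]
  rfl

theorem ez_blk {k m : ℕ} {χ : GL (Fin (k + m)) F → ℂ} (hχ : IsClass χ)
    (A : Matrix (Fin (k + m)) (Fin (k + m)) F)
    (hA : ∀ i j : Fin (k + m), k ≤ (i : ℕ) → (j : ℕ) < k → A i j = 0)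
    (c : Matrix (Fin (k + m)) (Fin (k + m)) F) : ez χ (A + ur k c)
      = toCF χ ((Fin m → F) × (Fin k → F))
          (blk (Matrix.toLin' (A.submatrix (Fin.castAdd m) (Fin.castAdd m))) (ub A + ub c)
            (Matrix.toLin' (A.submatrix (Fin.natAdd k) (Fin.natAdd k)))) := by
  rw [← toCF_toLin' hχ]
  symm
  exact inv_toCF hχ _ _ (th F k m) _ _ (th_blk A c hA)

theorem avg_shift {k m : ℕ} (G : ((Fin m → F) →ₗ[F] (Fin k → F)) → ℂ)
    (Y : (Fin m → F) →ₗ[F] (Fin k → F)) :
    (Fintype.card (Matrix (Fin (k + m)) (Fin (k + m)) F) : ℂ)⁻¹ *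
      ∑ c : Matrix (Fin (k + m)) (Fin (k + m)) F, G (Y + ub c)
      = (Fintype.card ((Fin m → F) →ₗ[F] (Fin k → F)) : ℂ)⁻¹ * ∑ X, G X := by
  have h1 := avg_surj (ub : Matrix (Fin (k + m)) (Fin (k + m)) F → _) ub_add ub_surj
    (fun X => G (Y + X))
  rw [h1]
  congr 1
  exact Equiv.sum_comp (Equiv.addLeft Y) G

theorem const_matrix0 {k m : ℕ} {χ : GL (Fin (k + m)) F → ℂ} (hχ : IsClass χ)
    (A : Matrix (Fin (k + m)) (Fin (k + m)) F)
    (hA : ∀ i j : Fin (k + m), k ≤ (i : ℕ) → (j : ℕ) < k → A i j = 0) :
    (Fintype.card (Matrix (Fin (k + m)) (Fin (k + m)) F) : ℂ)⁻¹ * ∑ c, ez χ (A + ur k c)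
      = del (toCF χ) (Matrix.toLin' (A.submatrix (Fin.castAdd m) (Fin.castAdd m)))
          (Matrix.toLin' (A.submatrix (Fin.natAdd k) (Fin.natAdd k))) := by
  rw [Finset.sum_congr rfl (fun c _ => ez_blk hχ A hA c)]
  exact avg_shift (fun X => toCF χ ((Fin m → F) × (Fin k → F))
          (blk (Matrix.toLin' (A.submatrix (Fin.castAdd m) (Fin.castAdd m))) X
            (Matrix.toLin' (A.submatrix (Fin.natAdd k) (Fin.natAdd k))))) (ub A)

/-- the constant terms in matrix form -/
theorem const_matrix {k m n : ℕ} (h : k + m = n) {χ : GL (Fin n) F → ℂ} (hχ : IsClass χ)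
    (A : Matrix (Fin n) (Fin n) F)
    (hA : ∀ i j : Fin n, k ≤ (i : ℕ) → (j : ℕ) < k → A i j = 0) :
    (Fintype.card (Matrix (Fin n) (Fin n) F) : ℂ)⁻¹ * ∑ c, ez χ (A + ur k c)
      = del (toCF χ) (Matrix.toLin' (A.submatrix (lo h) (lo h)))
          (Matrix.toLin' (A.submatrix (hi h) (hi h))) := by
  subst h
  exact const_matrix0 hχ A hA

section rec

open C1

variable {n : ℕ}

/-- the averaged constant terms -/
noncomputable def Tm (ψ : AddChar F ℂ) (χ : GL (Fin n) F → ℂ) (m : ℕ) : ℂ :=
  (Fintype.card (Matrix (Fin n) (Fin n) F) : ℂ)⁻¹ * ∑ c, ψ (-(sdm (m + 1) c)) * ez χ (Mt m c)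

theorem sum_H' {m : ℕ} (hm : m < n) (ψ : AddChar F ℂ) (χ : GL (Fin n) F → ℂ) :
    ∑ v, H ψ χ m v = (Fintype.card (Fin m → F) : ℂ) * Tm ψ χ m := by
  unfold H Tm
  rw [← Finset.mul_sum]
  rw [split hm (fun c v => ψ (-(sdm (m + 1) c)) * ez χ (Mt m (rep m v c)))
    (fun c v w => by rw [sdm_emb, rep_add])]
  simp only [rep_colm]
  ring

theorem D_step' {m : ℕ} (hm : m < n) (hm0 : 0 < m) (ψ : AddChar F ℂ) (hψ : ψ ≠ 1)
    {χ : GL (Fin n) F → ℂ} (hχ : IsClass χ) :
    Dm ψ χ (m + 1) = ((Fintype.card F : ℂ) ^ m - 1) * Dm ψ χ m + Tm ψ χ m := by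
  have h1 := sum_H' hm ψ χ
  have h2 := sum_ψH hm ψ χ hm0
  have hψs : ∑ v : Fin m → F, ψ (-(v ⟨m - 1, by omega⟩)) = 0 := by
    obtain ⟨t, ht⟩ : ∃ t, ψ t ≠ 1 := by
      by_contra hcon
      push Not at hcon
      apply hψ
      ext t
      rw [hcon t]
      simp
    have h3 : ∑ v : Fin m → F, ψ (-(v ⟨m - 1, by omega⟩))
        = ψ t * ∑ v : Fin m → F, ψ (-(v ⟨m - 1, by omega⟩)) := by
      rw [Finset.mul_sum]
      rw [← Equiv.sum_comp (Equiv.subRight (fun _ : Fin m => t))]
      apply Finset.sum_congr rfl
      intro v _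
      rw [← AddChar.map_add_eq_mul]
      congr 1
      simp [sub_eq_add_neg]
    have h4 : (1 - ψ t) * ∑ v : Fin m → F, ψ (-(v ⟨m - 1, by omega⟩)) = 0 := by
      rw [sub_mul, one_mul, ← h3, sub_self]
    rcases mul_eq_zero.mp h4 with h5 | h5
    · exact absurd (sub_eq_zero.mp h5).symm ht
    · exact h5
  have h3 : ∑ v : Fin m → F, (H ψ χ m v - H ψ χ m 1) = H ψ χ m 0 - H ψ χ m 1 := by
    rw [Finset.sum_eq_single 0]
    · intro v _ hv
      rw [H_const hm ψ hχ v hv, sub_self]
    · intro h; exact absurd (Finset.mem_univ _) h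
  have h4 : ∑ v : Fin m → F, ψ (-(v ⟨m - 1, by omega⟩)) * (H ψ χ m v - H ψ χ m 1)
      = H ψ χ m 0 - H ψ χ m 1 := by
    rw [Finset.sum_eq_single 0]
    · simp
    · intro v _ hv
      rw [H_const hm ψ hχ v hv, sub_self, mul_zero]
    · intro h; exact absurd (Finset.mem_univ _) h
  rw [Finset.sum_sub_distrib, h1, Finset.sum_const, Finset.card_univ, nsmul_eq_mul] at h3
  simp only [mul_sub] at h4
  rw [Finset.sum_sub_distrib, h2, ← Finset.sum_mul, hψs, zero_mul, sub_zero] at h4
  have hcard : (Fintype.card (Fin m → F) : ℂ) = (Fintype.card F : ℂ) ^ m := by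
    rw [Fintype.card_fun, Fintype.card_fin]
    push_cast
    rfl
  have hne : (Fintype.card (Fin m → F) : ℂ) ≠ 0 := by exact_mod_cast Fintype.card_ne_zero
  rw [← H_zero]
  rw [← h4] at h3
  have h5 : H ψ χ m 1 = Tm ψ χ m - Dm ψ χ m := by
    apply mul_left_cancel₀ hne
    linear_combination -h3
  rw [hcard] at h4
  rw [h5] at h4
  linear_combination -h4

theorem Tm_const {m k : ℕ} (h : m + k = n) (ψ : AddChar F ℂ)
    {χ : GL (Fin n) F → ℂ} (hχ : IsClass χ) :
    Tm ψ χ m = (Fintype.card (Matrix (Fin k) (Fin k) F) : ℂ)⁻¹ *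
      ∑ c : Matrix (Fin k) (Fin k) F, ψ (-(sd c)) *
        del (toCF χ) (Matrix.toLin' (1 : Matrix (Fin m) (Fin m) F)) (Matrix.toLin' (utri c)) := by
  have hM : (Fintype.card (Matrix (Fin n) (Fin n) F) : ℂ) ≠ 0 := cM_ne
  have e1 : ∑ c, ψ (-(sdm (m + 1) c)) * ez χ (Mt m c)
      = ∑ c : Matrix (Fin n) (Fin n) F, ψ (-(sd (c.submatrix (hi h) (hi h)))) *
        del (toCF χ) (Matrix.toLin' (1 : Matrix (Fin m) (Fin m) F))
          (Matrix.toLin' (utri (c.submatrix (hi h) (hi h)))) := by
    apply mul_left_cancel₀ hM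
    calc (Fintype.card (Matrix (Fin n) (Fin n) F) : ℂ) * ∑ c, ψ (-(sdm (m + 1) c)) * ez χ (Mt m c)
        = ∑ c' : Matrix (Fin n) (Fin n) F, ∑ c, ψ (-(sdm (m + 1) c)) * ez χ (Mt m c) := by
          rw [Finset.sum_const, Finset.card_univ, nsmul_eq_mul]
      _ = ∑ c' : Matrix (Fin n) (Fin n) F, ∑ c, ψ (-(sdm (m + 1) (c + ur m c'))) *
            ez χ (Mt m (c + ur m c')) := by
          apply Finset.sum_congr rfl
          intro c' _
          exact (Equiv.sum_comp (Equiv.addRight (ur m c'))
            (fun c => ψ (-(sdm (m + 1) c)) * ez χ (Mt m c))).symm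
      _ = ∑ c : Matrix (Fin n) (Fin n) F, ψ (-(sdm (m + 1) c)) * ∑ c', ez χ (Mt m c + ur m c') := by
          rw [Finset.sum_comm]
          apply Finset.sum_congr rfl
          intro c _
          rw [Finset.mul_sum]
          apply Finset.sum_congr rfl
          intro c' _
          have h3 : sdm (m + 1) (c + ur m c') = sdm (m + 1) c := by
            unfold sdm
            apply Finset.sum_congr rfl
            intro i _
            apply Finset.sum_congr rfl
            intro j _
            by_cases h : (i : ℕ) + 1 = (j : ℕ) ∧ m + 1 ≤ (j : ℕ)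
            · rw [if_pos h, if_pos h]
              unfold ur
              simp only [Matrix.add_apply, Matrix.of_apply]
              rw [if_neg (by omega), add_zero]
            · rw [if_neg h, if_neg h]
          have h4 : Mt m (c + ur m c') = Mt m c + ur m c' := by
            ext i j
            unfold Mt ur
            simp only [Matrix.add_apply, Matrix.of_apply]
            by_cases h : i = j
            · rw [if_pos h, if_pos h, if_neg (by rw [h]; omega), add_zero]
            · rw [if_neg h, if_neg h]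
              by_cases h5 : i < j ∧ m ≤ (j : ℕ)
              · rw [if_pos h5, if_pos h5]
              · rw [if_neg h5, if_neg h5, if_neg (by rw [Fin.lt_def] at h5; omega), add_zero]
          rw [h3, h4]
      _ = _ := by
          rw [Finset.mul_sum]
          apply Finset.sum_congr rfl
          intro c _
          have h6 := const_matrix h hχ (Mt m c) (by
            intro i j hi hj
            unfold Mt
            simp only [Matrix.of_apply]
            rw [if_neg, if_neg]
            · rw [Fin.lt_def]; omega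
            · rintro rfl; omega)
          have h7 : (Mt m c).submatrix (lo h) (lo h) = (1 : Matrix (Fin m) (Fin m) F) := by
            ext i j
            rw [Matrix.submatrix_apply]
            unfold Mt
            rw [Matrix.of_apply]
            by_cases hij : i = j
            · subst hij
              rw [if_pos rfl, Matrix.one_apply_eq]
            · rw [if_neg, if_neg, Matrix.one_apply_ne hij]
              · rintro ⟨_, h8⟩
                have h9 : ((lo h j : Fin n) : ℕ) = j := rfl
                omega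
              · intro h8
                apply hij
                apply Fin.ext
                have := congrArg Fin.val h8
                exact this
          have h8 : (Mt m c).submatrix (hi h) (hi h) = utri (c.submatrix (hi h) (hi h)) := by
            ext i j
            rw [Matrix.submatrix_apply]
            unfold Mt utri
            rw [Matrix.of_apply, Matrix.of_apply]
            have hv : ∀ i : Fin k, ((hi h i : Fin n) : ℕ) = m + i := fun i => rfl
            by_cases hij : i = j
            · subst hij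
              rw [if_pos rfl, if_pos rfl]
            · rw [if_neg hij, if_neg (fun h9 => hij (by
                have := congrArg Fin.val h9
                rw [hv, hv] at this
                exact Fin.ext (by omega)))]
              by_cases hlt : i < j
              · rw [if_pos hlt, if_pos, Matrix.submatrix_apply]
                rw [Fin.lt_def] at hlt ⊢
                rw [hv, hv]
                omega
              · rw [if_neg hlt, if_neg]
                rw [Fin.lt_def] at hlt ⊢
                rw [hv, hv]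
                omega
          have h9 : sdm (m + 1) c = sd (c.submatrix (hi h) (hi h)) := by
            unfold sdm sd
            have hv : ∀ i : Fin k, ((hi h i : Fin n) : ℕ) = m + i := fun i => rfl
            have hinj : Function.Injective (hi h : Fin k → Fin n) := by
              intro i j hij
              have := congrArg Fin.val hij
              rw [hv, hv] at this
              exact Fin.ext (by omega)
            have hout : ∀ i : Fin n, i ∉ Set.range (hi h : Fin k → Fin n) → (i : ℕ) < m := by
              intro i hi'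
              by_contra hcon
              apply hi'
              refine ⟨⟨i - m, by omega⟩, ?_⟩
              apply Fin.ext
              rw [hv]
              simp only
              omega
            symm
            refine Finset.sum_of_injOn (hi h) hinj.injOn (fun _ _ => Finset.mem_coe.mpr (Finset.mem_univ _)) ?_ ?_
            · intro i _ hi'
              apply Finset.sum_eq_zero
              intro j _
              have : (i : ℕ) < m := hout i (fun hh => hi' (by simpa using hh))
              rw [if_neg (by omega)]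
            · intro i _
              refine Finset.sum_of_injOn (hi h) hinj.injOn (fun _ _ => Finset.mem_coe.mpr (Finset.mem_univ _)) ?_ ?_
              · intro j _ hj'
                have : (j : ℕ) < m := hout j (fun hh => hj' (by simpa using hh))
                rw [if_neg (by omega)]
              · intro j _
                rw [hv, hv, Matrix.submatrix_apply]
                by_cases hij : (i : ℕ) + 1 = (j : ℕ)
                · rw [if_pos hij, if_pos (by omega)]
                · rw [if_neg hij, if_neg (by omega)]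
          rw [h7, h8] at h6
          rw [← h6, h9]
          field_simp
  unfold Tm
  rw [e1]
  exact avg_surj (A := Matrix (Fin n) (Fin n) F) (B := Matrix (Fin k) (Fin k) F)
    (fun c => c.submatrix (hi h) (hi h)) (fun _ _ => rfl)
    (fun M => by
      refine ⟨Matrix.of fun i j => if h' : m ≤ (i : ℕ) ∧ m ≤ (j : ℕ) then
        M ⟨i - m, by omega⟩ ⟨j - m, by omega⟩ else 0, ?_⟩
      have hv : ∀ i : Fin k, ((hi h i : Fin n) : ℕ) = m + i := fun i => rfl
      show Matrix.submatrix _ (hi h) (hi h) = M
      ext i j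
      rw [Matrix.submatrix_apply, Matrix.of_apply]
      rw [dif_pos (by rw [hv, hv]; omega)]
      have h1 : (⟨((hi h i : Fin n) : ℕ) - m, by rw [hv]; omega⟩ : Fin k) = i :=
        Fin.ext (by simp only [hv]; omega)
      have h2 : (⟨((hi h j : Fin n) : ℕ) - m, by rw [hv]; omega⟩ : Fin k) = j :=
        Fin.ext (by simp only [hv]; omega)
      exact congrArg₂ M h1 h2)
    (fun c => ψ (-(sd c)) * del (toCF χ) (Matrix.toLin' (1 : Matrix (Fin m) (Fin m) F))
      (Matrix.toLin' (utri c)))

end rec

end Vale.Agent.P275.H769
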